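import Vale.Agent.H16.FIID.M3Ising
/-! M3b: `freeIsing_unique`, `freeIsing_prob`, `freeIsing_map` are proved in `M3Ising`. -/
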